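import Vale.Agent.P122.S.Prof
import Vale.Agent.P122.H518.E12
import Vale.Agent.P122.H518.E6
import Vale.Agent.P122.K931.E4
import Vale.Agent.P122.H265.E7
import Vale.Agent.P122.H535.E5
import Vale.Agent.P122.H380.Lst
import Vale.Agent.P122.H823.Cut
import Vale.Agent.P122.H465.E9Fin
import Vale.Agent.P122.H425.StRG
import Vale.Agent.P127.U.Lam.Final

/-! # P122 / Z : composition, first part: the multiscale theorem `StCORE` (helper315) -/

set_option autoImplicit false

namespace Vale.Agent.P122.Z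

open Vale.Agent.P122.C2 Vale.Agent.P122.E Vale.Agent.P122.S Vale.Agent.P127.U

/-- `StCORE` from the Kakeya inequality and the open blocks -/
theorem core_of (hJ : ∀ β : ℝ, 0 < β → JF 2 β) (h5 : StE5) (h8 : StE8) (h9 : StE9)
    (hRG : ∀ κ : ℝ, 0 < κ → κ ≤ 1 → StRG κ) : StCORE := by
  have h4 : E4 := K931.e4 hJ
  have h6 : StE6 := by
    obtain ⟨C, h5⟩ := h5
    exact ⟨_, H518.e6_of h4 h5⟩
  exact core H518.e1 H518.e2 h5 h6 ⟨0, H265.e7_of h4 le_rfl⟩ h8 h9 hRG

/-- `E8` -/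
theorem stE8 : StE8 := H380.e8_of' H823.stCut e5

/-- `StCORE` from the Kakeya inequality -/
theorem core_of_JF (hJ : ∀ β : ℝ, 0 < β → JF 2 β) : StCORE :=
  core_of hJ ⟨_, e5⟩ stE8 (H465.stE9 (K931.e4 hJ) stE8) H425.stRG

/-- **[CORE]** the multiscale theorem -/
theorem stCORE : StCORE := core_of_JF Vale.Agent.P127.U.Final.jf2

end Vale.Agent.P122.Z
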